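import Vale.Agent.P042.Comp

/-! Boolean checkers for one-level systems. -/

namespace Vale.Agent.P042

open Finset

/-- digit `r` of `x` in base `2 ^ 16` -/
def dig (x r : ℕ) : ℕ := (x >>> (16 * r)) % 65536

theorem lev_of_check (q n m G : ℕ) (Rl : List ℕ) (l w : ℕ → ℕ) (sq : ℕ) (hn : 0 < n)
    (hnm : n * m = q ^ 2) (hrad : ∀ z : ℤ, (n : ℤ) ∣ z ^ 2 → (q : ℤ) ∣ z)
    (h1 : (List.range n).all (fun y => sq.testBit (y * y % n)) = true)
    (h2 : Rl.all (fun r => decide (r < n) && (decide (l r + w r ≤ G) && Rl.all (fun r' =>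
      !sq.testBit ((r + n - r') % n) || (r == r' || decide (l r + w r ≤ l r'))))) = true) :
    Lev q n m G Rl.toFinset l w := by
  simp only [List.all_eq_true, List.mem_range, Bool.and_eq_true, decide_eq_true_eq,
    Bool.or_eq_true, Bool.not_eq_true', beq_iff_eq] at h1 h2
  refine ⟨hn, hnm, hrad, fun r hr => ⟨(h2 r (List.mem_toFinset.1 hr)).1,
    (h2 r (List.mem_toFinset.1 hr)).2.1⟩, fun r hr r' hr' hne z hz => ?_⟩
  have hr1 := List.mem_toFinset.1 hr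
  have hr2 := List.mem_toFinset.1 hr'
  have hlt' := (h2 r' hr2).1
  rcases (h2 r hr1).2.2 r' hr2 with h | h | h
  · exfalso
    have hn' : (0 : ℤ) < n := by exact_mod_cast hn
    obtain ⟨y, hy⟩ : ∃ y : ℕ, (y : ℤ) = z % n :=
      ⟨(z % n).toNat, Int.toNat_of_nonneg (Int.emod_nonneg _ hn'.ne')⟩
    have hyn : y < n := by
      have := Int.emod_lt_of_pos z hn'
      omega
    have e : y * y % n = (r + n - r') % n := by
      refine (Nat.modEq_iff_dvd.2 ?_ : r + n - r' ≡ y * y [MOD n]).symm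
      obtain ⟨v, hv⟩ := hz
      have hz' : z = y + n * (z / n) := by rw [hy]; exact (Int.emod_add_mul_ediv z n).symm
      refine ⟨v - 1 - 2 * y * (z / n) - n * (z / n) ^ 2, ?_⟩
      rw [Nat.cast_sub (by omega)]
      push_cast
      rw [hz'] at hv
      have hq : (y + n * (z / n)) / n = z / n := by rw [← hz']
      linear_combination hv
    have := h1 y hyn
    rw [e, h] at this
    exact Bool.false_ne_true this
  · exact absurd h hne
  · exact h

theorem rad_prime {p : ℕ} (hp : p.Prime) (z : ℤ) (h : (p : ℤ) ∣ z ^ 2) : (p : ℤ) ∣ z :=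
  (Nat.prime_iff_prime_int.1 hp).dvd_of_dvd_pow h

theorem uni {q n m G : ℕ} {R : Finset ℕ} {l : ℕ → ℕ} (hL : Lev q n m G R l (fun _ => 1))
    (hq : 0 < q) (k a E : ℕ) (h1 : 2 ^ a ≤ (m * R.card) ^ k) (h2 : G ^ k ≤ 2 ^ E) :
    Sys (q ^ k) (2 ^ a) 1 (2 ^ E) := by
  have := hL.sys.pow hq k
  rw [one_pow] at this
  exact this.mono h1 h2

theorem nonuni {q n m G : ℕ} {R : Finset ℕ} {l w : ℕ → ℕ} (hL : Lev q n m G R l w)
    (Wd : Finset ℕ) (hWd : ∀ v ∈ Wd, 0 < v) (hw : ∀ r ∈ R, w r ∈ Wd) (k a E : ℕ) (c : ℕ → ℕ)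
    (hc : ∑ v ∈ Wd, c v = k)
    (h1 : 2 ^ a * ∏ v ∈ Wd, (c v).factorial ≤
      k.factorial * ∏ v ∈ Wd, (m * (R.filter (fun r => w r = v)).card) ^ c v)
    (h2 : G ^ k / ∏ v ∈ Wd, v ^ c v ≤ 2 ^ E) :
    Sys (q ^ k) (2 ^ a) 1 (2 ^ E) := by
  obtain ⟨T, hT1, hT2⟩ := types hL Wd hWd hw k c hc
  refine (hT1.normalize (prod_pos fun v hv => pow_pos (hWd v hv) _)).mono ?_ h2
  rw [← hT2] at h1
  exact Nat.le_of_mul_le_mul_right h1 (prod_pos fun v _ => Nat.factorial_pos _)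

end Vale.Agent.P042
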