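import Vale.Agent.P042.Sys
import Mathlib.Analysis.SpecialFunctions.Pow.Real

/-! Composition of height systems and the passage to square-difference-free sets. -/

namespace Vale.Agent.P042

open Finset

theorem Sys.lex {q t W H Q t' W' H' : ℕ} (hq : 0 < q) (h1 : Sys q t W H) (h2 : Sys Q t' W' H') :
    Sys (q * Q) (t * t') (W * W') (H * H') := by
  obtain ⟨S, h, a1, a2, a3⟩ := h1
  have hL : Lev q (q ^ 2) 1 H S h (fun _ => W) := by
    refine ⟨by positivity, by simp, fun z hz => ?_, a2, fun r hr r' hr' hne z hz => ?_⟩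
    · push_cast at hz
      exact (Int.pow_dvd_pow_iff two_ne_zero).1 hz
    · push_cast at hz
      exact a3 r hr r' hr' hne z hz
  have := tree hL (Q := Q) (W := W * W') (Hs := H') (fun _ => t') (fun r _ => ⟨W', h2, le_rfl⟩)
  refine this.mono ?_ le_rfl
  rw [sum_const, smul_eq_mul, one_mul]
  exact Nat.mul_le_mul_right _ a1

theorem Sys.pow {q t W H : ℕ} (hq : 0 < q) (h1 : Sys q t W H) (k : ℕ) :
    Sys (q ^ k) (t ^ k) (W ^ k) (H ^ k) := by
  induction k with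
  | zero => simpa using sys_one
  | succ k ih => simpa [pow_succ'] using h1.lex hq ih

theorem Sys.coprime {q t H Q t' H' : ℕ} (hq : 0 < q) (hQ : 0 < Q) (hc : Nat.Coprime q Q)
    (h1 : Sys q t 1 H) (h2 : Sys Q t' 1 H') : Sys (q * Q) (t * t') 1 (H + H') := by
  classical
  obtain ⟨S, h, a1, a2, a3⟩ := h1
  obtain ⟨S', h', b1, b2, b3⟩ := h2
  have hc2 : Nat.Coprime (q ^ 2) (Q ^ 2) := Nat.Coprime.pow 2 2 hc
  refine ⟨(range ((q * Q) ^ 2)).filter (fun x => x % q ^ 2 ∈ S ∧ x % Q ^ 2 ∈ S'),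
    fun x => h (x % q ^ 2) + h' (x % Q ^ 2), ?_, ?_, ?_⟩
  · have hc : t * t' ≤ (S ×ˢ S').card := by
      rw [card_product]; exact Nat.mul_le_mul a1 b1
    refine hc.trans ?_
    have dec : ∀ a ∈ S, ∀ b ∈ S', (Nat.chineseRemainder hc2 a b : ℕ) % q ^ 2 = a ∧
        (Nat.chineseRemainder hc2 a b : ℕ) % Q ^ 2 = b := by
      intro a ha b hb
      obtain ⟨e1, e2⟩ := (Nat.chineseRemainder hc2 a b).2
      exact ⟨by rw [e1, Nat.mod_eq_of_lt (a2 a ha).1], by rw [e2, Nat.mod_eq_of_lt (b2 b hb).1]⟩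
    refine card_le_card_of_injOn (fun p => (Nat.chineseRemainder hc2 p.1 p.2 : ℕ)) ?_ ?_
    · rintro ⟨a, b⟩ hp
      simp only [coe_product, Set.mem_prod, mem_coe] at hp
      obtain ⟨d1, d2⟩ := dec a hp.1 b hp.2
      simp only [coe_filter, mem_range, Set.mem_ofPred_eq]
      refine ⟨?_, by rw [d1]; exact hp.1, by rw [d2]; exact hp.2⟩
      rw [mul_pow]
      exact Nat.chineseRemainder_lt_mul hc2 a b (by positivity) (by positivity)
    · rintro ⟨a, b⟩ hp ⟨a', b'⟩ hp' he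
      simp only [coe_product, Set.mem_prod, mem_coe] at hp hp'
      obtain ⟨d1, d2⟩ := dec a hp.1 b hp.2
      obtain ⟨e1, e2⟩ := dec a' hp'.1 b' hp'.2
      simp only at he
      have x1 : a = a' := by rw [← d1, ← e1, he]
      have x2 : b = b' := by rw [← d2, ← e2, he]
      rw [x1, x2]
  · intro x hx
    simp only [mem_filter, mem_range] at hx
    obtain ⟨h1, h2, h3⟩ := hx
    have := (a2 _ h2).2
    have := (b2 _ h3).2
    exact ⟨h1, by simp only; omega⟩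
  · intro x hx y hy hne z hz
    simp only [mem_filter, mem_range] at hx hy
    obtain ⟨h1, h2, h3⟩ := hx
    obtain ⟨g1, g2, g3⟩ := hy
    have red : ∀ M : ℕ, ((M : ℤ) ^ 2 ∣ ((q * Q : ℕ) : ℤ) ^ 2) →
        (M : ℤ) ^ 2 ∣ z ^ 2 - (((x % M ^ 2 : ℕ) : ℤ) - (y % M ^ 2 : ℕ)) := by
      intro M hM
      have hxm : (x : ℤ) = (x % M ^ 2 : ℕ) + (M : ℤ) ^ 2 * (x / M ^ 2 : ℕ) := by
        exact_mod_cast (Nat.mod_add_div x (M ^ 2)).symm
      have hym : (y : ℤ) = (y % M ^ 2 : ℕ) + (M : ℤ) ^ 2 * (y / M ^ 2 : ℕ) := by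
        exact_mod_cast (Nat.mod_add_div y (M ^ 2)).symm
      have : z ^ 2 - (((x % M ^ 2 : ℕ) : ℤ) - (y % M ^ 2 : ℕ)) =
          (z ^ 2 - ((x : ℤ) - y)) + (M : ℤ) ^ 2 * ((x / M ^ 2 : ℕ) - (y / M ^ 2 : ℕ)) := by
        linear_combination hxm - hym
      rw [this]
      exact dvd_add (hM.trans hz) (dvd_mul_right _ _)
    have r1 := red q ⟨(Q : ℤ) ^ 2, by push_cast; ring⟩
    have r2 := red Q ⟨(q : ℤ) ^ 2, by push_cast; ring⟩
    by_cases e1 : x % q ^ 2 = y % q ^ 2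
    · by_cases e2 : x % Q ^ 2 = y % Q ^ 2
      · exfalso
        apply hne
        have : x ≡ y [MOD q ^ 2 * Q ^ 2] := (Nat.modEq_and_modEq_iff_modEq_mul hc2).1 ⟨e1, e2⟩
        rw [mul_pow] at h1 g1
        exact Nat.ModEq.eq_of_lt_of_lt this h1 g1
      · have := b3 _ h3 _ g3 e2 z r2
        simp only [e1]; omega
    · have := a3 _ h2 _ g2 e1 z r1
      by_cases e2 : x % Q ^ 2 = y % Q ^ 2
      · simp only [e2]; omega
      · have := b3 _ h3 _ g3 e2 z r2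
        simp only; omega

/-- Words of a fixed width type. -/
theorem types {q n m G : ℕ} {R : Finset ℕ} {l w : ℕ → ℕ} (hL : Lev q n m G R l w)
    (Wd : Finset ℕ) (hWd : ∀ v ∈ Wd, 0 < v) (hw : ∀ r ∈ R, w r ∈ Wd) (k : ℕ) :
    ∀ c : ℕ → ℕ, ∑ v ∈ Wd, c v = k → ∃ T, Sys (q ^ k) T (∏ v ∈ Wd, v ^ c v) (G ^ k) ∧
      T * ∏ v ∈ Wd, (c v).factorial =
        k.factorial * ∏ v ∈ Wd, (m * (R.filter (fun r => w r = v)).card) ^ c v := by
  classical
  induction k with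
  | zero =>
    intro c hc
    have h0 : ∀ v ∈ Wd, c v = 0 := sum_eq_zero_iff.1 hc
    refine ⟨1, ?_, ?_⟩
    · rw [prod_congr rfl (fun v hv => by rw [h0 v hv, pow_zero] : ∀ v ∈ Wd, v ^ c v = 1)]
      simpa using sys_one
    · rw [prod_congr rfl (fun v hv => by rw [h0 v hv]; rfl : ∀ v ∈ Wd, (c v).factorial = 1),
        prod_congr rfl (fun v hv => by rw [h0 v hv, pow_zero] :
          ∀ v ∈ Wd, (m * (R.filter (fun r => w r = v)).card) ^ c v = 1)]
      simp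
  | succ k ih =>
    intro c hc
    set μ : ℕ → ℕ := fun v => m * (R.filter (fun r => w r = v)).card with hμ
    have step : ∀ v ∈ Wd, ∃ T, (∃ W', Sys (q ^ k) T W' (G ^ k) ∧ ∏ u ∈ Wd, u ^ c u ≤ v * W') ∧
        μ v * T * ∏ u ∈ Wd, (c u).factorial = c v * (k.factorial * ∏ u ∈ Wd, μ u ^ c u) := by
      intro v hv
      rcases Nat.eq_zero_or_pos (c v) with h0 | h0
      · exact ⟨0, ⟨_, sys_zero _ _ _, Nat.le_mul_of_pos_left _ (hWd v hv)⟩, by simp [h0]⟩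
      · obtain ⟨j, hj⟩ : ∃ j, c v = j + 1 := ⟨c v - 1, by omega⟩
        have split : ∀ (f : ℕ → ℕ → ℕ) (d : ℕ → ℕ), ∏ u ∈ Wd, f u (d u) =
            f v (d v) * ∏ u ∈ Wd.erase v, f u (d u) := fun f d =>
          (mul_prod_erase Wd (fun u => f u (d u)) hv).symm
        have upd : ∀ (f : ℕ → ℕ → ℕ), ∏ u ∈ Wd, f u (Function.update c v j u) =
            f v j * ∏ u ∈ Wd.erase v, f u (c u) := by
          intro f
          rw [split f, Function.update_self]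
          congr 1
          exact prod_congr rfl fun u hu => by rw [Function.update_of_ne (ne_of_mem_erase hu)]
        obtain ⟨T, hT1, hT2⟩ := ih (Function.update c v j) (by
          rw [← add_sum_erase Wd _ hv, Function.update_self,
            sum_congr rfl fun u hu => Function.update_of_ne (ne_of_mem_erase hu) j c]
          rw [← add_sum_erase Wd c hv, hj] at hc
          have : ∑ u ∈ Wd.erase v, c u = (Wd.erase v).sum c := rfl
          omega)
        refine ⟨T, ⟨_, hT1, ?_⟩, ?_⟩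
        · rw [upd (fun u a => u ^ a), split (fun u a => u ^ a) c, hj, pow_succ]
          exact le_of_eq (by ring)
        · rw [upd (fun _ a => a.factorial), upd (fun u a => μ u ^ a)] at hT2
          rw [split (fun _ a => a.factorial) c, split (fun u a => μ u ^ a) c, hj,
            Nat.factorial_succ, pow_succ]
          linear_combination (μ v * (j + 1)) * hT2
    choose! T hT1 hT2 using step
    refine ⟨m * ∑ r ∈ R, T (w r), ?_, ?_⟩
    · rw [pow_succ', pow_succ']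
      exact tree hL (fun r => T (w r)) (fun r hr => hT1 _ (hw r hr))
    · have e : m * ∑ r ∈ R, T (w r) = ∑ v ∈ Wd, μ v * T v := by
        rw [← sum_fiberwise_of_maps_to (s := R) (t := Wd) (g := w) hw, mul_sum]
        refine sum_congr rfl fun v hv => ?_
        rw [sum_congr rfl (g := fun _ => T v)
          (fun r hr => by rw [(mem_filter.1 hr).2]), sum_const, smul_eq_mul, hμ, mul_assoc]
      rw [e, sum_mul, sum_congr rfl hT2, ← sum_mul, hc, Nat.factorial_succ, mul_assoc]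

theorem Lev.sys {q n m G : ℕ} {R : Finset ℕ} {l : ℕ → ℕ} (hL : Lev q n m G R l (fun _ => 1)) :
    Sys q (m * R.card) 1 G := by
  simpa using tree hL (Q := 1) (W := 1) (Hs := 1) (fun _ => 1) (fun r _ => ⟨1, sys_one, le_rfl⟩)

theorem Sys.set {Q t H : ℕ} (hQ : 0 < Q) (hs : Sys Q t 1 H) :
    ∃ A : Finset ℕ, A ⊆ Icc 1 (Q ^ 2 * H) ∧ t ≤ A.card ∧
      ∀ a ∈ A, ∀ b ∈ A, ∀ z : ℕ, 1 ≤ z → (a : ℤ) - b ≠ (z : ℤ) ^ 2 := by
  classical
  obtain ⟨S, h, a1, a2, a3⟩ := hs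
  have hQ2 : 0 < Q ^ 2 := by positivity
  refine ⟨S.image (fun s => s + Q ^ 2 * h s + 1), ?_, ?_, ?_⟩
  · intro x hx
    obtain ⟨s, hs, rfl⟩ := mem_image.1 hx
    obtain ⟨b1, b2⟩ := a2 s hs
    refine mem_Icc.2 ⟨by omega, ?_⟩
    calc s + Q ^ 2 * h s + 1 ≤ Q ^ 2 * (h s + 1) := by rw [mul_add]; omega
      _ ≤ Q ^ 2 * H := Nat.mul_le_mul_left _ b2
  · rw [card_image_of_injOn]
    · exact a1
    · intro s hs s' hs' he
      have e : s + Q ^ 2 * h s = s' + Q ^ 2 * h s' := by simpa using he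
      have := congrArg (· % Q ^ 2) e
      simpa [Nat.add_mul_mod_self_left, Nat.mod_eq_of_lt (a2 s hs).1,
        Nat.mod_eq_of_lt (a2 s' hs').1] using this
  · intro a ha b hb z hz he
    obtain ⟨s, hs, rfl⟩ := mem_image.1 ha
    obtain ⟨s', hs', rfl⟩ := mem_image.1 hb
    have hz2 : (0 : ℤ) < (z : ℤ) ^ 2 := by positivity
    have hne : s ≠ s' := by
      rintro rfl
      rw [sub_self] at he
      omega
    have hlt := a3 s hs s' hs' hne z ⟨(h s : ℤ) - h s', by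
      push_cast at he; linear_combination -he⟩
    have b1 := (a2 s hs).1
    have b2 : Q ^ 2 * (h s + 1) ≤ Q ^ 2 * h s' := Nat.mul_le_mul_left _ hlt
    rw [mul_add] at b2
    have b3 : s + Q ^ 2 * h s + 1 ≤ s' + Q ^ 2 * h s' + 1 := by omega
    have b4 : ((s + Q ^ 2 * h s + 1 : ℕ) : ℤ) ≤ ((s' + Q ^ 2 * h s' + 1 : ℕ) : ℤ) := by
      exact_mod_cast b3
    omega

theorem Sys.asymp {Q a b H : ℕ} (hQ : 0 < Q) (hs : Sys Q (2 ^ a) 1 H) (hb : Q ^ 2 * H ≤ 2 ^ b)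
    (hb0 : 0 < b) (γ : ℝ) (hγ0 : 0 ≤ γ) (hγ : γ * b ≤ a) :
    ∃ c : ℝ, 0 < c ∧ ∀ N : ℕ, 1 ≤ N → ∃ A : Finset ℕ, A ⊆ Icc 1 N ∧
      (∀ x ∈ A, ∀ y ∈ A, ∀ z : ℕ, 1 ≤ z → (x : ℤ) - y ≠ (z : ℤ) ^ 2) ∧
      c * (N : ℝ) ^ γ ≤ A.card := by
  refine ⟨1 / 2 ^ a, by positivity, fun N hN => ?_⟩
  have hB : 1 < 2 ^ b := Nat.one_lt_two_pow hb0.ne'
  set i := Nat.log (2 ^ b) N with hi
  have l1 : (2 ^ b) ^ i ≤ N := Nat.pow_log_le_self _ (by omega)
  have l2 : N < (2 ^ b) ^ (i + 1) := Nat.lt_pow_succ_log_self hB N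
  have hp := hs.pow hQ i
  rw [one_pow] at hp
  obtain ⟨A, A1, A2, A3⟩ := hp.set (by positivity)
  refine ⟨A, A1.trans (Icc_subset_Icc_right ?_), A3, ?_⟩
  · calc (Q ^ i) ^ 2 * H ^ i = (Q ^ 2 * H) ^ i := by ring
      _ ≤ (2 ^ b) ^ i := Nat.pow_le_pow_left hb i
      _ ≤ N := l1
  · have c1 : (N : ℝ) ≤ (2 : ℝ) ^ ((b * (i + 1) : ℕ) : ℝ) := by
      rw [Real.rpow_natCast, pow_mul]
      exact_mod_cast l2.le
    have c2 : (N : ℝ) ^ γ ≤ (2 : ℝ) ^ ((a * (i + 1) : ℕ) : ℝ) := by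
      calc (N : ℝ) ^ γ ≤ ((2 : ℝ) ^ ((b * (i + 1) : ℕ) : ℝ)) ^ γ :=
            Real.rpow_le_rpow (by positivity) c1 hγ0
        _ = (2 : ℝ) ^ (((b * (i + 1) : ℕ) : ℝ) * γ) := (Real.rpow_mul (by norm_num) _ _).symm
        _ ≤ _ := by
            refine Real.rpow_le_rpow_of_exponent_le (by norm_num) ?_
            push_cast
            have : (0 : ℝ) ≤ (i : ℝ) + 1 := by positivity
            nlinarith
    rw [Real.rpow_natCast] at c2
    have c3 : (((2 ^ a) ^ i : ℕ) : ℝ) ≤ A.card := by exact_mod_cast A2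
    calc 1 / 2 ^ a * (N : ℝ) ^ γ ≤ 1 / 2 ^ a * 2 ^ (a * (i + 1)) := by gcongr
      _ = (((2 ^ a) ^ i : ℕ) : ℝ) := by push_cast; field_simp; ring
      _ ≤ _ := c3

end Vale.Agent.P042
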