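import Mathlib.Data.Nat.ChineseRemainder
import Mathlib.Algebra.BigOperators.Intervals
import Mathlib.Algebra.BigOperators.Ring.Finset
import Mathlib.Data.Nat.Factorial.Basic
import Mathlib.Algebra.Order.BigOperators.Group.Finset
import Mathlib.Tactic

/-! Height systems for square differences modulo `Q^2`. -/

namespace Vale.Agent.P042

open Finset

/-- A set of at least `t` residues below `Q^2`, each with an interval `[h s, h s + W)` inside
`[0, H)`, such that a square difference forces the intervals to be ordered. -/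
def Sys (Q t W H : ℕ) : Prop :=
  ∃ (S : Finset ℕ) (h : ℕ → ℕ), t ≤ S.card ∧ (∀ s ∈ S, s < Q ^ 2 ∧ h s + W ≤ H) ∧
    ∀ s ∈ S, ∀ s' ∈ S, s ≠ s' → ∀ z : ℤ, ((Q : ℤ) ^ 2 ∣ z ^ 2 - ((s : ℤ) - s')) → h s + W ≤ h s'

theorem Sys.mono {Q t W H t' H' : ℕ} (hs : Sys Q t W H) (ht : t' ≤ t) (hH : H ≤ H') :
    Sys Q t' W H' := by
  obtain ⟨S, h, h1, h2, h3⟩ := hs
  exact ⟨S, h, ht.trans h1, fun s hs => ⟨(h2 s hs).1, (h2 s hs).2.trans hH⟩, h3⟩

theorem sys_zero (Q W H : ℕ) : Sys Q 0 W H :=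
  ⟨∅, fun _ => 0, le_rfl, by simp, by simp⟩

theorem sys_one : Sys 1 1 1 1 :=
  ⟨{0}, fun _ => 0, by simp, by simp, by simp⟩

theorem Sys.normalize {Q t W H : ℕ} (hs : Sys Q t W H) (hW : 0 < W) :
    Sys Q t 1 (H / W) := by
  obtain ⟨S, h, h1, h2, h3⟩ := hs
  have key : ∀ a b : ℕ, a + W ≤ b → a / W + 1 ≤ b / W := by
    intro a b hab
    rw [← Nat.add_div_right a hW]
    exact Nat.div_le_div_right hab
  exact ⟨S, fun s => h s / W, h1, fun s hs => ⟨(h2 s hs).1, key _ _ (h2 s hs).2⟩,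
    fun s hs s' hs' hne z hz => key _ _ (h3 s hs s' hs' hne z hz)⟩

/-- A one-level interval system modulo `n`, where `n * m = q ^ 2`. -/
def Lev (q n m G : ℕ) (R : Finset ℕ) (l w : ℕ → ℕ) : Prop :=
  0 < n ∧ n * m = q ^ 2 ∧ (∀ z : ℤ, (n : ℤ) ∣ z ^ 2 → (q : ℤ) ∣ z) ∧
    (∀ r ∈ R, r < n ∧ l r + w r ≤ G) ∧
    ∀ r ∈ R, ∀ r' ∈ R, r ≠ r' → ∀ z : ℤ, ((n : ℤ) ∣ z ^ 2 - ((r : ℤ) - r')) → l r + w r ≤ l r'

theorem tree {q n m G : ℕ} {R : Finset ℕ} {l w : ℕ → ℕ} (hL : Lev q n m G R l w)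
    {Q W Hs : ℕ} (t : ℕ → ℕ)
    (hsub : ∀ r ∈ R, ∃ W', Sys Q (t r) W' Hs ∧ W ≤ w r * W') :
    Sys (q * Q) (m * ∑ r ∈ R, t r) W (G * Hs) := by
  classical
  obtain ⟨hn, hnm, hrad, hR, hE⟩ := hL
  choose! W' hsys hW using hsub
  choose! S h hS1 hS2 hS3 using hsys
  rcases Nat.eq_zero_or_pos m with hm | hm
  · subst hm
    simpa using sys_zero _ _ _
  have hq2 : 0 < q ^ 2 := hnm ▸ Nat.mul_pos hn hm
  refine ⟨(range ((q * Q) ^ 2)).filter (fun x => x % n ∈ R ∧ x / q ^ 2 ∈ S (x % n)),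
    fun x => l (x % n) * Hs + w (x % n) * h (x % n) (x / q ^ 2), ?_, ?_, ?_⟩
  · have hc : m * ∑ r ∈ R, t r ≤ (R.sigma (fun r => range m ×ˢ S r)).card := by
      rw [card_sigma, mul_sum]
      refine sum_le_sum fun r hr => ?_
      rw [card_product, card_range]
      exact Nat.mul_le_mul_left _ (hS1 r hr)
    refine hc.trans ?_
    have dec : ∀ r j s : ℕ, r < n → j < m →
        (r + n * j + q ^ 2 * s) % n = r ∧ (r + n * j + q ^ 2 * s) / q ^ 2 = s ∧
          r + n * j < q ^ 2 := by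
      intro r j s hr hj
      have h3 : r + n * j < q ^ 2 := by
        rw [← hnm]
        calc r + n * j < n + n * j := by omega
          _ = n * (j + 1) := by ring
          _ ≤ n * m := Nat.mul_le_mul_left _ hj
      refine ⟨?_, ?_, h3⟩
      · rw [← hnm]
        have : r + n * j + n * m * s = r + n * (j + m * s) := by ring
        rw [this, Nat.add_mul_mod_self_left, Nat.mod_eq_of_lt hr]
      · rw [Nat.add_mul_div_left _ _ hq2, Nat.div_eq_of_lt h3, zero_add]
    refine card_le_card_of_injOn (fun p => p.1 + n * p.2.1 + q ^ 2 * p.2.2) ?_ ?_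
    · rintro ⟨r, j, s⟩ hp
      simp only [coe_sigma, Set.mem_sigma_iff, mem_coe, coe_product, Set.mem_prod,
        mem_range] at hp
      obtain ⟨hr, hj, hs⟩ := hp
      obtain ⟨d1, d2, d3⟩ := dec r j s (hR r hr).1 hj
      simp only [coe_filter, mem_range, Set.mem_ofPred_eq]
      refine ⟨?_, ?_, ?_⟩
      · have := (hS2 r hr s hs).1
        calc r + n * j + q ^ 2 * s < q ^ 2 + q ^ 2 * s := by omega
          _ = q ^ 2 * (s + 1) := by ring
          _ ≤ q ^ 2 * Q ^ 2 := Nat.mul_le_mul_left _ this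
          _ = (q * Q) ^ 2 := by ring
      · rw [d1]; exact hr
      · rw [d1, d2]; exact hs
    · rintro ⟨r, j, s⟩ hp ⟨r', j', s'⟩ hp' he
      simp only [coe_sigma, Set.mem_sigma_iff, mem_coe, coe_product, Set.mem_prod,
        mem_range] at hp hp'
      obtain ⟨hr, hj, hs⟩ := hp
      obtain ⟨hr', hj', hs'⟩ := hp'
      obtain ⟨d1, d2, d3⟩ := dec r j s (hR r hr).1 hj
      obtain ⟨e1, e2, e3⟩ := dec r' j' s' (hR r' hr').1 hj'
      simp only at he
      have a1 : r = r' := by rw [← d1, ← e1, he]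
      have a2 : s = s' := by rw [← d2, ← e2, he]
      subst a1 a2
      have a3 : j = j' := by
        have : n * j = n * j' := by omega
        exact Nat.eq_of_mul_eq_mul_left hn this
      subst a3
      rfl
  · intro x hx
    simp only [mem_filter, mem_range] at hx
    obtain ⟨h1, h2, h3⟩ := hx
    refine ⟨h1, ?_⟩
    have a1 := (hS2 _ h2 _ h3).2
    have a2 := hW _ h2
    have a3 := (hR _ h2).2
    calc l (x % n) * Hs + w (x % n) * h (x % n) (x / q ^ 2) + W
        ≤ l (x % n) * Hs + w (x % n) * h (x % n) (x / q ^ 2) + w (x % n) * W' (x % n) := by omega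
      _ = l (x % n) * Hs + w (x % n) * (h (x % n) (x / q ^ 2) + W' (x % n)) := by ring
      _ ≤ l (x % n) * Hs + w (x % n) * Hs := by gcongr
      _ = (l (x % n) + w (x % n)) * Hs := by ring
      _ ≤ G * Hs := by gcongr
  · intro x hx y hy hne z hz
    simp only [mem_filter, mem_range] at hx hy
    obtain ⟨h1, h2, h3⟩ := hx
    obtain ⟨g1, g2, g3⟩ := hy
    have hnq : (n : ℤ) ∣ ((q * Q : ℕ) : ℤ) ^ 2 := by
      refine ⟨(m : ℤ) * Q ^ 2, ?_⟩
      have : (n : ℤ) * m = q ^ 2 := by exact_mod_cast hnm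
      push_cast
      rw [← mul_assoc, this]; ring
    have hxm : (x : ℤ) = (x % n : ℕ) + n * (x / n : ℕ) := by
      exact_mod_cast (Nat.mod_add_div x n).symm
    have hym : (y : ℤ) = (y % n : ℕ) + n * (y / n : ℕ) := by
      exact_mod_cast (Nat.mod_add_div y n).symm
    have hnz : (n : ℤ) ∣ z ^ 2 - (((x % n : ℕ) : ℤ) - (y % n : ℕ)) := by
      have h0 := hnq.trans hz
      have : z ^ 2 - (((x % n : ℕ) : ℤ) - (y % n : ℕ)) =
          (z ^ 2 - ((x : ℤ) - y)) + n * ((x / n : ℕ) - (y / n : ℕ)) := by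
        linear_combination hxm - hym
      rw [this]
      exact dvd_add h0 (dvd_mul_right _ _)
    by_cases hr : x % n = y % n
    · have hz1 : (n : ℤ) ∣ z ^ 2 := by simpa [hr] using hnz
      obtain ⟨u, rfl⟩ := hrad z hz1
      have hxq : (x : ℤ) = (x % q ^ 2 : ℕ) + (q : ℤ) ^ 2 * (x / q ^ 2 : ℕ) := by
        exact_mod_cast (Nat.mod_add_div x (q ^ 2)).symm
      have hyq : (y : ℤ) = (y % q ^ 2 : ℕ) + (q : ℤ) ^ 2 * (y / q ^ 2 : ℕ) := by
        exact_mod_cast (Nat.mod_add_div y (q ^ 2)).symm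
      obtain ⟨v, hv⟩ := hz
      have hd : ((q ^ 2 : ℕ) : ℤ) ∣ (x : ℤ) - y := by
        refine ⟨u ^ 2 - (Q : ℤ) ^ 2 * v, ?_⟩
        push_cast at hv ⊢
        linear_combination -hv
      have hmod : y % q ^ 2 = x % q ^ 2 := (Nat.modEq_iff_dvd.2 hd)
      have hne' : x / q ^ 2 ≠ y / q ^ 2 := by
        intro he
        apply hne
        rw [← Nat.mod_add_div x (q ^ 2), ← Nat.mod_add_div y (q ^ 2), he, hmod]
      have hq0 : (q : ℤ) ^ 2 ≠ 0 := by exact_mod_cast hq2.ne'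
      have hz2 : (Q : ℤ) ^ 2 ∣ u ^ 2 - (((x / q ^ 2 : ℕ) : ℤ) - (y / q ^ 2 : ℕ)) := by
        refine ⟨v, mul_left_cancel₀ hq0 ?_⟩
        rw [hmod] at hyq
        push_cast at hv hxq hyq ⊢
        linear_combination hv + hxq - hyq
      rw [← hr] at g3
      have a1 := hS3 _ h2 _ h3 _ g3 hne' u hz2
      have a2 := hW _ h2
      simp only [← hr]
      calc l (x % n) * Hs + w (x % n) * h (x % n) (x / q ^ 2) + W
          ≤ l (x % n) * Hs + w (x % n) * h (x % n) (x / q ^ 2) + w (x % n) * W' (x % n) := by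
            omega
        _ = l (x % n) * Hs + w (x % n) * (h (x % n) (x / q ^ 2) + W' (x % n)) := by ring
        _ ≤ l (x % n) * Hs + w (x % n) * h (x % n) (y / q ^ 2) := by gcongr
    · have a0 := hE _ h2 _ g2 hr z hnz
      have a1 := (hS2 _ h2 _ h3).2
      have a2 := hW _ h2
      calc l (x % n) * Hs + w (x % n) * h (x % n) (x / q ^ 2) + W
          ≤ l (x % n) * Hs + w (x % n) * h (x % n) (x / q ^ 2) + w (x % n) * W' (x % n) := by
            omega
        _ = l (x % n) * Hs + w (x % n) * (h (x % n) (x / q ^ 2) + W' (x % n)) := by ring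
        _ ≤ l (x % n) * Hs + w (x % n) * Hs := by gcongr
        _ = (l (x % n) + w (x % n)) * Hs := by ring
        _ ≤ l (y % n) * Hs := by gcongr
        _ ≤ _ := Nat.le_add_right _ _

end Vale.Agent.P042
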